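import Vale.Agent.Lib.P368.Sq.Main
import Vale.Agent.Lib.P368.Sq.Tight

namespace Vale.Agent.Results.P368.DepthTwoTight

open Vale.Agent.Lib.P368 Finset

/-- Entangling depth two with the sharp exponent, in the gate model of the problem.  A circuit
is a list of layers, each a list of one-qubit unitaries and generalized Toffoli gates with
pairwise disjoint supports.

First part: if at most two layers contain a generalized Toffoli gate, then, for any number of
layers, ancillas and gates and any arities, the parity correlation on `n` input bits is at most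
`6 / (sqrt 2)^n`, and any worst-case advantage `ε` for parity is at most `3 / (sqrt 2)^n`.

Second part: for every `m ≥ 1` there is such a circuit on `2 * m` input bits and one more
qubit whose parity correlation is `2 / 2^m = 2 / (sqrt 2)^(2 * m)` in absolute value, so the
exponent of the first part cannot be improved. -/
theorem result :
    (∀ (Q : Type) [Fintype Q] [DecidableEq Q] (n : ℕ) (inp : Fin n ↪ Q)
      (Tc : List (List (TGate Q))), (∀ l ∈ Tc, LayerValid l) → entDepth Tc ≤ 2 → ∀ q : Q,
      |tParityCorrelation Tc inp q| ≤ 6 / Real.sqrt 2 ^ n ∧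
        ∀ ε : ℝ, (∀ x : Fin n → Bool, 1 / 2 + ε ≤ tOutProb Tc inp q x (parity x)) →
          ε ≤ 3 / Real.sqrt 2 ^ n) ∧
    (∀ m : ℕ, 1 ≤ m → ∃ (inp : Fin (2 * m) ↪ Option (Fin m × Bool))
      (Tc : List (List (TGate (Option (Fin m × Bool))))),
      (∀ l ∈ Tc, LayerValid l) ∧ entDepth Tc ≤ 2 ∧
        |tParityCorrelation Tc inp none| = 2 / 2 ^ m) := by
  refine ⟨?_, fun m hm => depth_two_witness m hm⟩
  intro Q _ _ n inp Tc hv hd q
  have h := parity_corr_bound_base 3 (Real.sqrt 2) (fun x b => tOutProb Tc inp q x b)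
    (fun x => tOutProb_add Tc hv inp q x) (fun b => t_signed_sum_depth_two_sqrt inp Tc hv hd q b)
  have e1 : 2 * 3 * Real.sqrt 2 ^ n / 2 ^ n = 6 / Real.sqrt 2 ^ n := by
    rw [mul_div_assoc, sqrt_two_pow_div]
    ring
  have e2 : 3 * Real.sqrt 2 ^ n / 2 ^ n = 3 / Real.sqrt 2 ^ n := by
    rw [mul_div_assoc, sqrt_two_pow_div]
    ring
  rw [e1, e2] at h
  exact h

end Vale.Agent.Results.P368.DepthTwoTight
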