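import Vale.Agent.Lib.P368.Adv5.WideR

namespace Vale.Agent.Results.P368.GateFactorsRestricted

open Vale.Agent.Lib.P368 Finset

/-- Every entangling depth, in the gate model of the problem.  A circuit is a list of layers,
each a list of one-qubit unitaries and generalized Toffoli gates with pairwise disjoint
supports.

The circuit is `pre ++ mid ++ suf`: in the layers of `pre` (any number of layers, gates and
ancillas) no generalized Toffoli gate acts on an input qubit, `mid` is arbitrary, and at most
two layers of `suf` contain a generalized Toffoli gate.  Every circuit has this shape, with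
`suf` starting at its last but one layer that contains a generalized Toffoli gate and `pre`
empty.  Let `D` be the number of layers of `mid` that contain a generalized Toffoli gate, let
`T` be any set of input positions (the sacrificed inputs), and for a generalized Toffoli gate
`g` let `k` be the number of input positions outside `T` whose qubits lie in its support.

First part: let `θ` be a real number in `(0, 1]` with `θ^D ≥ 1 / sqrt 2`, and let the factor of
`g` be `gth θ k`, which is `1` if `k = 0` and `1 + 8 θ^k` otherwise.  With `F` the product of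
the factors of all generalized Toffoli gates of `mid`, the parity correlation on `n` input bits
is at most `6 * (sqrt 2)^|T| * F / (sqrt 2)^n` in absolute value, and any worst-case advantage
`ε` for parity is at most `3 * (sqrt 2)^|T| * F / (sqrt 2)^n`.

Second part: if every generalized Toffoli gate of `mid` has `k = 0` or `k ≥ 4 * D`, then the
fourth power of the parity correlation is at most `6^4 * (4/3)^|T| * (3/4)^n`.  With `T` the
complement of a set `S` of inputs this is `6^4 * (3/4)^|S|`: a circuit with parity correlation
`c` has, for every set `S` of inputs with `6^4 * (3/4)^|S| < c^4`, a generalized Toffoli gate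
in `mid` that acts on at least one and fewer than `4 * D` of the qubits of `S`. -/
theorem result :
    (∀ (Q : Type) [Fintype Q] [DecidableEq Q] (n : ℕ) (inp : Fin n ↪ Q) (T : Finset (Fin n))
      (pre mid suf : List (List (TGate Q))), (∀ l ∈ pre, LayerValid l) →
      (∀ l ∈ mid, LayerValid l) → (∀ l ∈ suf, LayerValid l) →
      (∀ l ∈ pre, ∀ g ∈ l, g.isRight = true → ∀ j, inp j ∉ g.support) → entDepth suf ≤ 2 →
      ∀ θ : ℝ, 0 < θ → θ ≤ 1 → 1 / Real.sqrt 2 ≤ θ ^ entDepth mid → ∀ q : Q,
        |tParityCorrelation (pre ++ mid ++ suf) inp q| ≤
          6 * (Real.sqrt 2 ^ T.card *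
            (mid.map fun l => ((l.filter fun g => g.isRight).map fun g =>
              gth θ (univ.filter fun j => j ∉ T ∧ inp j ∈ g.support).card).prod).prod) /
                Real.sqrt 2 ^ n ∧
        ∀ ε : ℝ, (∀ x : Fin n → Bool,
            1 / 2 + ε ≤ tOutProb (pre ++ mid ++ suf) inp q x (parity x)) →
          ε ≤ 3 * (Real.sqrt 2 ^ T.card *
            (mid.map fun l => ((l.filter fun g => g.isRight).map fun g =>
              gth θ (univ.filter fun j => j ∉ T ∧ inp j ∈ g.support).card).prod).prod) /
                Real.sqrt 2 ^ n) ∧
    (∀ (Q : Type) [Fintype Q] [DecidableEq Q] (n : ℕ) (inp : Fin n ↪ Q) (T : Finset (Fin n))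
      (pre mid suf : List (List (TGate Q))), (∀ l ∈ pre, LayerValid l) →
      (∀ l ∈ mid, LayerValid l) → (∀ l ∈ suf, LayerValid l) →
      (∀ l ∈ pre, ∀ g ∈ l, g.isRight = true → ∀ j, inp j ∉ g.support) → entDepth suf ≤ 2 →
      (∀ l ∈ mid, ∀ g ∈ l, g.isRight = true →
        (univ.filter fun j => j ∉ T ∧ inp j ∈ g.support).card = 0 ∨
          4 * entDepth mid ≤ (univ.filter fun j => j ∉ T ∧ inp j ∈ g.support).card) →
      ∀ q : Q, |tParityCorrelation (pre ++ mid ++ suf) inp q| ^ 4 ≤
        1296 * (4 / 3 : ℝ) ^ T.card * (3 / 4 : ℝ) ^ n) :=
  ⟨fun _ _ _ _ inp T pre mid suf hvp hvm hvs hoff hd θ h0 h1 hD q =>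
      depth_many_final_off inp T pre mid suf hvp hvm hvs hoff hd θ h0 h1 hD q,
    fun _ _ _ _ inp T pre mid suf hvp hvm hvs hoff hd hwide q =>
      depth_many_wide_off inp T pre mid suf hvp hvm hvs hoff hd hwide q⟩

end Vale.Agent.Results.P368.GateFactorsRestricted
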