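import Vale.Agent.Lib.P368.Gen.GMain

namespace Vale.Agent.Results.P368.MiddleGateTradeoff

open Vale.Agent.Lib.P368 Finset

/-- Any depth, in the gate model of the problem.  A circuit is a list of layers, each a list of
one-qubit unitaries and generalized Toffoli gates with pairwise disjoint supports.  Let `G` be
the number of generalized Toffoli gates in the entangling layers other than the first and the
last entangling layer (`midGates`).  Then, for any depth, any number of ancillas and any
arities, the parity correlation on `n` input bits is at most `6 * 9^G * (6/7)^n`, and any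
worst-case advantage `ε` for parity is at most `3 * 9^G * (6/7)^n`. -/
theorem result {Q : Type} [Fintype Q] [DecidableEq Q] {n : ℕ} (inp : Fin n ↪ Q)
    (Tc : List (List (TGate Q))) (hv : ∀ l ∈ Tc, LayerValid l) (q : Q) :
    |tParityCorrelation Tc inp q| ≤ 6 * 9 ^ midGates Tc * (6 / 7 : ℝ) ^ n ∧
      ∀ ε : ℝ, (∀ x : Fin n → Bool, 1 / 2 + ε ≤ tOutProb Tc inp q x (parity x)) →
        ε ≤ 3 * 9 ^ midGates Tc * (6 / 7 : ℝ) ^ n := by
  have h := parity_corr_bound_gen (3 * 9 ^ midGates Tc) (fun x b => tOutProb Tc inp q x b)
    (fun x => tOutProb_add Tc hv inp q x) (fun b => t_signed_sum_general inp Tc hv q b)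
  have e : 2 * (3 * (9 : ℝ) ^ midGates Tc) = 6 * 9 ^ midGates Tc := by ring
  rw [e] at h
  exact h

end Vale.Agent.Results.P368.MiddleGateTradeoff
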