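import Vale.Agent.Lib.P368.Adv5.WideR
import Vale.Agent.Lib.P368.AdvS.Final
import Vale.Agent.Lib.P368.Gen.GMain

namespace Vale.Agent.Results.P368.ParityBoundsOmnibus

open Vale.Agent.Lib.P368 Finset

/-- Four statements on parity in the gate model of the problem.  A circuit is a list of layers,
each a list of one-qubit unitaries and generalized Toffoli gates with pairwise disjoint
supports; the parity correlation is taken on `n` input bits, with any number of ancillas.

First and second part (every entangling depth, gate factors): the circuit is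
`pre ++ mid ++ suf`, no generalized Toffoli gate of `pre` acts on an input qubit, at most two
layers of `suf` contain a generalized Toffoli gate, `D` layers of `mid` do, `T` is any set of
input positions, and `k` is, for a generalized Toffoli gate, the number of input positions
outside `T` whose qubits lie in its support.  First part: for `θ` in `(0, 1]` with
`θ^D ≥ 1 / sqrt 2` and `F` the product over the generalized Toffoli gates of `mid` of
`gth θ k` (`1` if `k = 0`, else `1 + 8 θ^k`), the parity correlation is at most
`6 * (sqrt 2)^|T| * F / (sqrt 2)^n` in absolute value and any worst-case advantage is at most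
half of that.  Second part: if every generalized Toffoli gate of `mid` has `k = 0` or
`k ≥ 4 * D`, the fourth power of the parity correlation is at most
`6^4 * (4/3)^|T| * (3/4)^n`.

Third part (sharpness at entangling depth two): for every `m ≥ 1` a circuit with at most two
layers containing a generalized Toffoli gate, on `2 * m` input bits and one more qubit, has
parity correlation `2 / 2^m` in absolute value; the first part gives at most `6 / 2^m` for such
circuits.

Fourth part (every depth, gates of the middle layers): with `G` the number of generalized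
Toffoli gates in the layers containing such a gate other than the first and the last of these
layers, the parity correlation is at most `6 * 9^G * (6/7)^n` in absolute value and any
worst-case advantage is at most `3 * 9^G * (6/7)^n`. -/
theorem result :
    (∀ (Q : Type) [Fintype Q] [DecidableEq Q] (n : ℕ) (inp : Fin n ↪ Q) (T : Finset (Fin n))
      (pre mid suf : List (List (TGate Q))), (∀ l ∈ pre, LayerValid l) →
      (∀ l ∈ mid, LayerValid l) → (∀ l ∈ suf, LayerValid l) →
      (∀ l ∈ pre, ∀ g ∈ l, g.isRight = true → ∀ j, inp j ∉ g.support) → entDepth suf ≤ 2 →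
      ∀ θ : ℝ, 0 < θ → θ ≤ 1 → 1 / Real.sqrt 2 ≤ θ ^ entDepth mid → ∀ q : Q,
        |tParityCorrelation (pre ++ mid ++ suf) inp q| ≤
          6 * (Real.sqrt 2 ^ T.card *
            (mid.map fun l => ((l.filter fun g => g.isRight).map fun g =>
              gth θ (univ.filter fun j => j ∉ T ∧ inp j ∈ g.support).card).prod).prod) /
                Real.sqrt 2 ^ n ∧
        ∀ ε : ℝ, (∀ x : Fin n → Bool,
            1 / 2 + ε ≤ tOutProb (pre ++ mid ++ suf) inp q x (parity x)) →
          ε ≤ 3 * (Real.sqrt 2 ^ T.card *
            (mid.map fun l => ((l.filter fun g => g.isRight).map fun g =>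
              gth θ (univ.filter fun j => j ∉ T ∧ inp j ∈ g.support).card).prod).prod) /
                Real.sqrt 2 ^ n) ∧
    (∀ (Q : Type) [Fintype Q] [DecidableEq Q] (n : ℕ) (inp : Fin n ↪ Q) (T : Finset (Fin n))
      (pre mid suf : List (List (TGate Q))), (∀ l ∈ pre, LayerValid l) →
      (∀ l ∈ mid, LayerValid l) → (∀ l ∈ suf, LayerValid l) →
      (∀ l ∈ pre, ∀ g ∈ l, g.isRight = true → ∀ j, inp j ∉ g.support) → entDepth suf ≤ 2 →
      (∀ l ∈ mid, ∀ g ∈ l, g.isRight = true →
        (univ.filter fun j => j ∉ T ∧ inp j ∈ g.support).card = 0 ∨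
          4 * entDepth mid ≤ (univ.filter fun j => j ∉ T ∧ inp j ∈ g.support).card) →
      ∀ q : Q, |tParityCorrelation (pre ++ mid ++ suf) inp q| ^ 4 ≤
        1296 * (4 / 3 : ℝ) ^ T.card * (3 / 4 : ℝ) ^ n) ∧
    (∀ m : ℕ, 1 ≤ m → ∃ (inp : Fin (2 * m) ↪ Option (Fin m × Bool))
      (Tc : List (List (TGate (Option (Fin m × Bool))))),
      (∀ l ∈ Tc, LayerValid l) ∧ entDepth Tc ≤ 2 ∧
        |tParityCorrelation Tc inp none| = 2 / 2 ^ m) ∧
    (∀ (Q : Type) [Fintype Q] [DecidableEq Q] (n : ℕ) (inp : Fin n ↪ Q)
      (Tc : List (List (TGate Q))), (∀ l ∈ Tc, LayerValid l) → ∀ q : Q,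
      |tParityCorrelation Tc inp q| ≤ 6 * 9 ^ midGates Tc * (6 / 7 : ℝ) ^ n ∧
        ∀ ε : ℝ, (∀ x : Fin n → Bool, 1 / 2 + ε ≤ tOutProb Tc inp q x (parity x)) →
          ε ≤ 3 * 9 ^ midGates Tc * (6 / 7 : ℝ) ^ n) := by
  refine ⟨fun _ _ _ _ inp T pre mid suf hvp hvm hvs hoff hd θ h0 h1 hD q =>
      depth_many_final_off inp T pre mid suf hvp hvm hvs hoff hd θ h0 h1 hD q,
    fun _ _ _ _ inp T pre mid suf hvp hvm hvs hoff hd hwide q =>
      depth_many_wide_off inp T pre mid suf hvp hvm hvs hoff hd hwide q,
    fun m hm => advice_final.2 m hm, ?_⟩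
  intro Q _ _ n inp Tc hv q
  have h := parity_corr_bound_gen (3 * 9 ^ midGates Tc) (fun x b => tOutProb Tc inp q x b)
    (fun x => tOutProb_add Tc hv inp q x) (fun b => t_signed_sum_general inp Tc hv q b)
  have e : 2 * (3 * (9 : ℝ) ^ midGates Tc) = 6 * 9 ^ midGates Tc := by ring
  rw [e] at h
  exact h

end Vale.Agent.Results.P368.ParityBoundsOmnibus
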